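import Mathlib

namespace Vale.Agent.Lib.P158

/-- Nearest-neighbour relation on the square lattice. -/
def Adj (a b : ℤ × ℤ) : Prop := |a.1 - b.1| + |a.2 - b.2| = 1

/-- Code of the unoriented nearest-neighbour edge joining adjacent vertices `a` and `b`:
a horizontal edge is coded by its left endpoint and `false`,
a vertical edge by its lower endpoint and `true`.
So the edges of the square lattice are indexed by `(ℤ × ℤ) × Bool`. -/
def edge (a b : ℤ × ℤ) : (ℤ × ℤ) × Bool :=
  if a.2 = b.2 then ((min a.1 b.1, a.2), false) else ((a.1, min a.2 b.2), true)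

/-- `p 0, p 1, ..., p m` is a finite nearest-neighbour path. -/
def IsWalk (p : ℕ → ℤ × ℤ) (m : ℕ) : Prop := ∀ k < m, Adj (p k) (p (k + 1))

/-- Sum of the weights of the `m` edges traversed by `p 0, p 1, ..., p m`. -/
noncomputable def walkWeight (t : (ℤ × ℤ) × Bool → ℝ) (p : ℕ → ℤ × ℤ) (m : ℕ) : ℝ :=
  ∑ k ∈ Finset.range m, t (edge (p k) (p (k + 1)))

/-- Geodesic ray for the edge weights `t`: pairwise distinct vertices, consecutive ones adjacent,
and every finite stretch has the least weight among all finite nearest-neighbour paths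
joining its endpoints. -/
def IsGeodesicRay (t : (ℤ × ℤ) × Bool → ℝ) (v : ℕ → ℤ × ℤ) : Prop :=
  Function.Injective v ∧ (∀ i, Adj (v i) (v (i + 1))) ∧
  ∀ i j : ℕ, i < j → ∀ (p : ℕ → ℤ × ℤ) (m : ℕ), IsWalk p m → p 0 = v i → p m = v j →
    ∑ k ∈ Finset.Ico i j, t (edge (v k) (v (k + 1))) ≤ walkWeight t p m

/-- Bigeodesic for the edge weights `t`: the doubly infinite analogue. -/
def IsBigeodesic (t : (ℤ × ℤ) × Bool → ℝ) (v : ℤ → ℤ × ℤ) : Prop :=
  Function.Injective v ∧ (∀ i, Adj (v i) (v (i + 1))) ∧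
  ∀ i j : ℤ, i < j → ∀ (p : ℕ → ℤ × ℤ) (m : ℕ), IsWalk p m → p 0 = v i → p m = v j →
    ∑ k ∈ Finset.Ico i j, t (edge (v k) (v (k + 1))) ≤ walkWeight t p m

end Vale.Agent.Lib.P158
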