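import Mathlib
import Vale.Agent.Lib.P158.Model

namespace Vale.Agent.Lib.P158

open Finset

theorem adj_symm {a b : ℤ × ℤ} (h : Adj a b) : Adj b a := by
  unfold Adj at *
  rw [abs_sub_comm b.1, abs_sub_comm b.2]
  exact h

theorem adj_cases {a b : ℤ × ℤ} (h : Adj a b) :
    (a.2 = b.2 ∧ (b.1 = a.1 + 1 ∨ b.1 = a.1 - 1)) ∨
      (a.1 = b.1 ∧ (b.2 = a.2 + 1 ∨ b.2 = a.2 - 1)) := by
  unfold Adj at h
  rcases abs_cases (a.1 - b.1) with h1 | h1 <;> rcases abs_cases (a.2 - b.2) with h2 | h2 <;>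
    omega

theorem edge_symm {a b : ℤ × ℤ} (h : Adj a b) : edge a b = edge b a := by
  rcases adj_cases h with ⟨h2, _⟩ | ⟨h1, h2⟩
  · simp [edge, h2, min_comm]
  · have hne : a.2 ≠ b.2 := by omega
    simp [edge, hne, Ne.symm hne, h1, min_comm]

theorem isWalk_reverse {p : ℕ → ℤ × ℤ} {m : ℕ} (hp : IsWalk p m) :
    IsWalk (fun k => p (m - k)) m := by
  intro k hk
  have h := hp (m - (k + 1)) (by omega)
  have e : m - (k + 1) + 1 = m - k := by omega
  rw [e] at h
  exact adj_symm h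

theorem walkWeight_reverse (τ : (ℤ × ℤ) × Bool → ℝ) {p : ℕ → ℤ × ℤ} {m : ℕ}
    (hp : IsWalk p m) :
    walkWeight τ (fun k => p (m - k)) m = walkWeight τ p m := by
  unfold walkWeight
  rw [← Finset.sum_range_reflect (fun k => τ (edge (p k) (p (k + 1)))) m]
  apply Finset.sum_congr rfl
  intro k hk
  have hk' : k < m := Finset.mem_range.mp hk
  have h := hp (m - 1 - k) (by omega)
  have e1 : m - 1 - k + 1 = m - k := by omega
  have e2 : m - (k + 1) = m - 1 - k := by omega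
  rw [e1] at h
  simp only [e1, e2]
  rw [edge_symm h]

/-- Concatenation of two walks. -/
def wcat (p : ℕ → ℤ × ℤ) (m : ℕ) (p' : ℕ → ℤ × ℤ) : ℕ → ℤ × ℤ :=
  fun k => if k ≤ m then p k else p' (k - m)

theorem wcat_left {p p' : ℕ → ℤ × ℤ} {m k : ℕ} (hk : k ≤ m) : wcat p m p' k = p k := by
  simp [wcat, hk]

theorem wcat_right {p p' : ℕ → ℤ × ℤ} {m : ℕ} (h : p m = p' 0) (k : ℕ) :
    wcat p m p' (m + k) = p' k := by
  rcases Nat.eq_zero_or_pos k with rfl | hk
  · simp [wcat, h]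
  · have : ¬ (m + k ≤ m) := by omega
    simp [wcat, this]

theorem wcat_isWalk {p p' : ℕ → ℤ × ℤ} {m m' : ℕ} (h : p m = p' 0) (hp : IsWalk p m)
    (hp' : IsWalk p' m') : IsWalk (wcat p m p') (m + m') := by
  intro k hk
  by_cases hkm : k < m
  · rw [wcat_left (by omega), wcat_left (by omega)]
    exact hp k hkm
  · obtain ⟨j, rfl⟩ : ∃ j, k = m + j := ⟨k - m, by omega⟩
    rw [wcat_right h, show m + j + 1 = m + (j + 1) by omega, wcat_right h]
    exact hp' j (by omega)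

theorem wcat_weight (τ : (ℤ × ℤ) × Bool → ℝ) {p p' : ℕ → ℤ × ℤ} {m : ℕ} (m' : ℕ)
    (h : p m = p' 0) :
    walkWeight τ (wcat p m p') (m + m') = walkWeight τ p m + walkWeight τ p' m' := by
  unfold walkWeight
  rw [Finset.sum_range_add]
  congr 1
  · apply Finset.sum_congr rfl
    intro k hk
    have hk' : k < m := Finset.mem_range.mp hk
    rw [wcat_left (by omega), wcat_left (by omega)]
  · apply Finset.sum_congr rfl
    intro k _
    rw [wcat_right h, show m + k + 1 = m + (k + 1) by omega, wcat_right h]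

/-- A walk all of whose steps have weight at most `α`. -/
theorem walkWeight_le (τ : (ℤ × ℤ) × Bool → ℝ) {p : ℕ → ℤ × ℤ} {m : ℕ} {α : ℝ}
    (h : ∀ k < m, τ (edge (p k) (p (k + 1))) ≤ α) : walkWeight τ p m ≤ m * α := by
  unfold walkWeight
  calc ∑ k ∈ range m, τ (edge (p k) (p (k + 1))) ≤ ∑ _k ∈ range m, α :=
        Finset.sum_le_sum (fun k hk => h k (Finset.mem_range.mp hk))
    _ = m * α := by simp


/-- The block condition for the horizontal strip of heights `c, ..., c + w` between the columns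
`a` and `a + n`: horizontal edges of the strip inside the block are expensive (at least `β`),
the vertical edges of the two end columns and the row just above the strip are cheap
(at most `α`). -/
def Block (τ : (ℤ × ℤ) × Bool → ℝ) (c : ℤ) (w : ℕ) (a : ℤ) (n : ℕ) (α β : ℝ) : Prop :=
  (∀ x y : ℤ, a ≤ x → x < a + n → c ≤ y → y ≤ c + w → β ≤ τ ((x, y), false)) ∧
  (∀ y : ℤ, c ≤ y → y ≤ c + w → τ ((a, y), true) ≤ α ∧ τ ((a + n, y), true) ≤ α) ∧
  (∀ x : ℤ, a ≤ x → x < a + n → τ ((x, c + w + 1), false) ≤ α)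

theorem seg_weight_ge (τ : (ℤ × ℤ) × Bool → ℝ) (hτ : ∀ e, 0 ≤ τ e) {c a : ℤ} {w n : ℕ} {β : ℝ}
    (hexp : ∀ x y : ℤ, a ≤ x → x < a + n → c ≤ y → y ≤ c + w → β ≤ τ ((x, y), false))
    {q : ℕ → ℤ × ℤ} {L : ℕ} (hq : IsWalk q L)
    (hstrip : ∀ k ≤ L, c ≤ (q k).2 ∧ (q k).2 ≤ c + w)
    (hends : ((q 0).1 = a ∧ (q L).1 = a + n) ∨ ((q 0).1 = a + n ∧ (q L).1 = a)) :
    β * n ≤ walkWeight τ q L := by
  have hnonneg : 0 ≤ walkWeight τ q L := Finset.sum_nonneg (fun k _ => hτ _)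
  by_cases hβ : β ≤ 0
  · have : β * n ≤ 0 := mul_nonpos_of_nonpos_of_nonneg hβ (Nat.cast_nonneg n)
    linarith
  rw [not_le] at hβ
  set Z : ℕ → ℤ := fun k => max a (min (q k).1 (a + n)) with hZ
  have step : ∀ k < L, β * |((Z (k + 1) - Z k : ℤ) : ℝ)| ≤ τ (edge (q k) (q (k + 1))) := by
    intro k hk
    have hs0 := hstrip k (by omega)
    rcases adj_cases (hq k hk) with ⟨h2, h1 | h1⟩ | ⟨h1, h2⟩
    · have hedge : edge (q k) (q (k + 1)) = (((q k).1, (q k).2), false) := by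
        simp [edge, h2, h1]
      by_cases hin : a ≤ (q k).1 ∧ (q k).1 < a + n
      · have hd : Z (k + 1) - Z k = 1 := by
          simp only [hZ]; rw [h1]; omega
        rw [hd, hedge]
        simpa using hexp _ _ hin.1 hin.2 hs0.1 hs0.2
      · have hd : Z (k + 1) - Z k = 0 := by
          simp only [hZ]; rw [h1]; omega
        rw [hd]
        simpa using hτ _
    · have hedge : edge (q k) (q (k + 1)) = (((q k).1 - 1, (q k).2), false) := by
        simp [edge, h2, h1]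
      by_cases hin : a ≤ (q k).1 - 1 ∧ (q k).1 - 1 < a + n
      · have hd : Z (k + 1) - Z k = -1 := by
          simp only [hZ]; rw [h1]; omega
        rw [hd, hedge]
        simpa using hexp _ _ hin.1 hin.2 hs0.1 hs0.2
      · have hd : Z (k + 1) - Z k = 0 := by
          simp only [hZ]; rw [h1]; omega
        rw [hd]
        simpa using hτ _
    · have hd : Z (k + 1) - Z k = 0 := by
        simp only [hZ]; rw [h1]; omega
      rw [hd]
      simpa using hτ _
  have htel : ∑ k ∈ range L, (Z (k + 1) - Z k) = Z L - Z 0 := Finset.sum_range_sub Z L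
  have hn : |Z L - Z 0| = n := by
    rcases hends with ⟨h0, hL⟩ | ⟨h0, hL⟩
    · have : Z L - Z 0 = n := by simp only [hZ]; rw [h0, hL]; omega
      rw [this]; simp
    · have : Z L - Z 0 = -n := by simp only [hZ]; rw [h0, hL]; omega
      rw [this]; simp
  have habs : |Z L - Z 0| ≤ ∑ k ∈ range L, |Z (k + 1) - Z k| := by
    rw [← htel]; exact Finset.abs_sum_le_sum_abs _ _
  have hcast : (n : ℝ) ≤ ∑ k ∈ range L, |((Z (k + 1) - Z k : ℤ) : ℝ)| := by
    have h1 : ((|Z L - Z 0| : ℤ) : ℝ) ≤ ((∑ k ∈ range L, |Z (k + 1) - Z k| : ℤ) : ℝ) := by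
      exact_mod_cast habs
    rw [hn] at h1
    push_cast at h1
    simpa using h1
  calc β * n ≤ β * ∑ k ∈ range L, |((Z (k + 1) - Z k : ℤ) : ℝ)| :=
        mul_le_mul_of_nonneg_left hcast hβ.le
    _ = ∑ k ∈ range L, β * |((Z (k + 1) - Z k : ℤ) : ℝ)| := Finset.mul_sum _ _ _
    _ ≤ walkWeight τ q L := Finset.sum_le_sum (fun k hk => step k (Finset.mem_range.mp hk))

theorem bypass_exists (τ : (ℤ × ℤ) × Bool → ℝ) {c a : ℤ} {w n : ℕ} {α β : ℝ} (hα : 0 ≤ α)
    (hB : Block τ c w a n α β) {y1 y2 : ℤ} (h1 : c ≤ y1 ∧ y1 ≤ c + w)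
    (h2 : c ≤ y2 ∧ y2 ≤ c + w) :
    ∃ (p : ℕ → ℤ × ℤ) (m : ℕ), IsWalk p m ∧ p 0 = (a, y1) ∧ p m = (a + n, y2) ∧
      walkWeight τ p m ≤ (n + 2 * w + 2) * α := by
  obtain ⟨d1, hd1⟩ : ∃ d1 : ℕ, y1 + d1 = c + w + 1 := ⟨(c + w + 1 - y1).toNat, by omega⟩
  obtain ⟨d2, hd2⟩ : ∃ d2 : ℕ, y2 + d2 = c + w + 1 := ⟨(c + w + 1 - y2).toNat, by omega⟩
  set up : ℕ → ℤ × ℤ := fun k => (a, y1 + (k : ℤ)) with hup
  set top : ℕ → ℤ × ℤ := fun k => (a + (k : ℤ), c + w + 1) with htop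
  set down : ℕ → ℤ × ℤ := fun k => (a + n, c + w + 1 - (k : ℤ)) with hdown
  have e1 : up d1 = top 0 := by simp [hup, htop, hd1]
  have e2 : wcat up d1 top (d1 + n) = down 0 := by
    rw [wcat_right e1]; simp [htop, hdown]
  have wup : IsWalk up d1 := by
    intro k _; simp [hup, Adj]
  have wtop : IsWalk top n := by
    intro k _; simp [htop, Adj]
  have wdown : IsWalk down d2 := by
    intro k _; simp [hdown, Adj]
  have cup : walkWeight τ up d1 ≤ d1 * α := by
    apply walkWeight_le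
    intro k hk
    have hedge : edge (up k) (up (k + 1)) = ((a, y1 + (k : ℤ)), true) := by
      simp [hup, edge]
    rw [hedge]
    exact (hB.2.1 (y1 + k) (by omega) (by omega)).1
  have ctop : walkWeight τ top n ≤ n * α := by
    apply walkWeight_le
    intro k hk
    have hedge : edge (top k) (top (k + 1)) = ((a + (k : ℤ), c + w + 1), false) := by
      simp [htop, edge]
    rw [hedge]
    exact hB.2.2 (a + k) (by omega) (by omega)
  have cdown : walkWeight τ down d2 ≤ d2 * α := by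
    apply walkWeight_le
    intro k hk
    have hedge : edge (down k) (down (k + 1)) = ((a + n, c + w + 1 - ((k : ℤ) + 1)), true) := by
      simp [hdown, edge]
    rw [hedge]
    exact (hB.2.1 (c + w + 1 - ((k : ℤ) + 1)) (by omega) (by omega)).2
  refine ⟨wcat (wcat up d1 top) (d1 + n) down, d1 + n + d2,
    wcat_isWalk e2 (wcat_isWalk e1 wup wtop) wdown, ?_, ?_, ?_⟩
  · rw [wcat_left (by omega), wcat_left (by omega)]; simp [hup]
  · rw [wcat_right e2]
    simp only [hdown]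
    have : c + w + 1 - (d2 : ℤ) = y2 := by omega
    rw [this]
  · rw [wcat_weight τ d2 e2, wcat_weight τ n e1]
    have hd1' : (d1 : ℝ) ≤ w + 1 := by
      have : d1 ≤ w + 1 := by omega
      exact_mod_cast this
    have hd2' : (d2 : ℝ) ≤ w + 1 := by
      have : d2 ≤ w + 1 := by omega
      exact_mod_cast this
    nlinarith [mul_le_mul_of_nonneg_right hd1' hα, mul_le_mul_of_nonneg_right hd2' hα]

/-- A stretch of a walk that stays in the strip and crosses a block is not of least weight. -/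
theorem seg_not_min (τ : (ℤ × ℤ) × Bool → ℝ) (hτ : ∀ e, 0 ≤ τ e) {c a : ℤ} {w n : ℕ} {α β : ℝ}
    (hα : 0 ≤ α) (hαβ : (n + 2 * w + 2) * α < β * n) (hB : Block τ c w a n α β)
    {q : ℕ → ℤ × ℤ} {L : ℕ} (hq : IsWalk q L)
    (hstrip : ∀ k ≤ L, c ≤ (q k).2 ∧ (q k).2 ≤ c + w)
    (hends : ((q 0).1 = a ∧ (q L).1 = a + n) ∨ ((q 0).1 = a + n ∧ (q L).1 = a)) :
    ∃ (p : ℕ → ℤ × ℤ) (m : ℕ), IsWalk p m ∧ p 0 = q 0 ∧ p m = q L ∧
      walkWeight τ p m < walkWeight τ q L := by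
  have hge := seg_weight_ge τ hτ hB.1 hq hstrip hends
  rcases hends with ⟨h0, hL⟩ | ⟨h0, hL⟩
  · obtain ⟨p, m, hp, hp0, hpm, hw⟩ :=
      bypass_exists τ hα hB (hstrip 0 (Nat.zero_le _)) (hstrip L le_rfl)
    refine ⟨p, m, hp, ?_, ?_, by linarith⟩
    · rw [hp0]; exact Prod.ext h0.symm rfl
    · rw [hpm]; exact Prod.ext hL.symm rfl
  · obtain ⟨p, m, hp, hp0, hpm, hw⟩ :=
      bypass_exists τ hα hB (hstrip L le_rfl) (hstrip 0 (Nat.zero_le _))
    refine ⟨fun k => p (m - k), m, isWalk_reverse hp, ?_, ?_, ?_⟩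
    · simp only [Nat.sub_zero]; rw [hpm]; exact Prod.ext h0.symm rfl
    · simp only [Nat.sub_self]; rw [hp0]; exact Prod.ext hL.symm rfl
    · rw [walkWeight_reverse τ hp]; linarith

end Vale.Agent.Lib.P158
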