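import Mathlib
import Vale.Agent.Lib.P158.Det

namespace Vale.Agent.Lib.P158

open Finset

theorem hit_up {f : ℕ → ℤ} (hf : ∀ k, |f (k + 1) - f k| ≤ 1) {m : ℤ} {i : ℕ} (h0 : f 0 ≤ m)
    (hi : m ≤ f i) : ∃ k ≤ i, f k = m := by
  induction i with
  | zero => exact ⟨0, le_rfl, by omega⟩
  | succ i ih =>
    by_cases h : m ≤ f i
    · obtain ⟨k, hk, e⟩ := ih h
      exact ⟨k, by omega, e⟩
    · have h1 := abs_le.mp (hf i)
      exact ⟨i + 1, le_rfl, by omega⟩

theorem hit_down {f : ℕ → ℤ} (hf : ∀ k, |f (k + 1) - f k| ≤ 1) {m : ℤ} {i : ℕ} (h0 : m ≤ f 0)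
    (hi : f i ≤ m) : ∃ k ≤ i, f k = m := by
  induction i with
  | zero => exact ⟨0, le_rfl, by omega⟩
  | succ i ih =>
    by_cases h : f i ≤ m
    · obtain ⟨k, hk, e⟩ := ih h
      exact ⟨k, by omega, e⟩
    · have h1 := abs_le.mp (hf i)
      exact ⟨i + 1, le_rfl, by omega⟩

theorem adj_fst_step {a b : ℤ × ℤ} (h : Adj a b) : |b.1 - a.1| ≤ 1 := by
  rcases adj_cases h with ⟨_, h1 | h1⟩ | ⟨h1, _⟩ <;> rw [abs_le] <;> omega

/-- An injective walk confined to a horizontal strip crosses a block east of its start or a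
block west of its start. -/
theorem cross_exists {v : ℕ → ℤ × ℤ} (hinj : Function.Injective v)
    (hadj : ∀ i, Adj (v i) (v (i + 1))) {c : ℤ} {w n : ℕ} (hn : 1 ≤ n)
    (hs : ∀ i, c ≤ (v i).2 ∧ (v i).2 ≤ c + w) {a a' : ℤ} (ha : (v 0).1 < a)
    (ha' : a' + n < (v 0).1) :
    ∃ i1 i2 : ℕ, i1 < i2 ∧ (((v i1).1 = a ∧ (v i2).1 = a + n) ∨
      ((v i1).1 = a' + n ∧ (v i2).1 = a')) := by
  have hf : ∀ k, |(v (k + 1)).1 - (v k).1| ≤ 1 := fun k => adj_fst_step (hadj k)
  by_cases hE : ∃ i, a + n ≤ (v i).1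
  · obtain ⟨i, hi⟩ := hE
    obtain ⟨i2, _, (e2 : (v i2).1 = a + n)⟩ :=
      hit_up (f := fun k => (v k).1) hf (m := a + n) (i := i) (by omega) hi
    obtain ⟨i1, h12, (e1 : (v i1).1 = a)⟩ :=
      hit_up (f := fun k => (v k).1) hf (m := a) (i := i2) (by omega)
      (by show a ≤ (v i2).1; omega)
    have hne : i1 ≠ i2 := by
      rintro rfl
      omega
    exact ⟨i1, i2, by omega, Or.inl ⟨e1, e2⟩⟩
  by_cases hW : ∃ i, (v i).1 ≤ a'
  · obtain ⟨i, hi⟩ := hW
    obtain ⟨i2, _, (e2 : (v i2).1 = a')⟩ :=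
      hit_down (f := fun k => (v k).1) hf (m := a') (i := i) (by omega) hi
    obtain ⟨i1, h12, (e1 : (v i1).1 = a' + n)⟩ :=
      hit_down (f := fun k => (v k).1) hf (m := a' + n) (i := i2)
      (by omega) (by show (v i2).1 ≤ a' + n; omega)
    have hne : i1 ≠ i2 := by
      rintro rfl
      omega
    exact ⟨i1, i2, by omega, Or.inr ⟨e1, e2⟩⟩
  exfalso
  rw [not_exists] at hE hW
  have hsub : Set.range v ⊆ ↑((Finset.Ioo a' (a + n)) ×ˢ (Finset.Icc c (c + w))) := by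
    rintro _ ⟨i, rfl⟩
    have h1 := hE i
    have h2 := hW i
    have h3 := hs i
    simp only [Finset.coe_product, Finset.coe_Ioo, Finset.coe_Icc, Set.mem_prod, Set.mem_Ioo,
      Set.mem_Icc]
    omega
  exact ((Set.infinite_range_of_injective hinj).mono hsub) (Finset.finite_toSet _)

/-- No geodesic ray stays in a horizontal strip when blocks occur arbitrarily far east and
west. -/
theorem ray_not_in_strip (τ : (ℤ × ℤ) × Bool → ℝ) (hτ : ∀ e, 0 ≤ τ e) {c : ℤ} {w n : ℕ}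
    {α β : ℝ} (hn : 1 ≤ n) (hα : 0 ≤ α) (hαβ : (n + 2 * w + 2) * α < β * n)
    (hE : ∀ X : ℤ, ∃ a, X < a ∧ Block τ c w a n α β)
    (hW : ∀ X : ℤ, ∃ a, a + n < X ∧ Block τ c w a n α β)
    {v : ℕ → ℤ × ℤ} (hv : IsGeodesicRay τ v) :
    ¬ (∀ i, c ≤ (v i).2 ∧ (v i).2 ≤ c + w) := by
  intro hs
  obtain ⟨hinj, hadj, hmin⟩ := hv
  obtain ⟨a, ha, hBa⟩ := hE (v 0).1
  obtain ⟨a', ha', hBa'⟩ := hW (v 0).1
  obtain ⟨i1, i2, hlt, hcase⟩ := cross_exists hinj hadj hn hs ha ha'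
  have hq : IsWalk (fun k => v (i1 + k)) (i2 - i1) := fun k _ => hadj (i1 + k)
  have hstrip : ∀ k ≤ i2 - i1, c ≤ (v (i1 + k)).2 ∧ (v (i1 + k)).2 ≤ c + w := fun k _ => hs _
  have e0 : v (i1 + 0) = v i1 := by simp
  have eL : v (i1 + (i2 - i1)) = v i2 := by congr 1; omega
  have hsum : walkWeight τ (fun k => v (i1 + k)) (i2 - i1) =
      ∑ k ∈ Finset.Ico i1 i2, τ (edge (v k) (v (k + 1))) := by
    unfold walkWeight
    rw [Finset.sum_Ico_eq_sum_range]
    apply Finset.sum_congr rfl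
    intro k _
    rfl
  have key : ∀ {b : ℤ}, Block τ c w b n α β →
      (((v i1).1 = b ∧ (v i2).1 = b + n) ∨ ((v i1).1 = b + n ∧ (v i2).1 = b)) → False := by
    intro b hB hends
    obtain ⟨p, m, hp, hp0, hpm, hw⟩ := seg_not_min τ hτ hα hαβ hB hq hstrip
      (by simpa only [e0, eL] using hends)
    have h1 := hmin i1 i2 hlt p m hp (by rw [hp0]; simp) (by rw [hpm, eL])
    rw [hsum] at hw
    linarith
  rcases hcase with h | h
  · exact key hBa (Or.inl h)
  · exact key hBa' (Or.inr h)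

/-- Transposition of the lattice. -/
def swapV (a : ℤ × ℤ) : ℤ × ℤ := (a.2, a.1)

/-- Transposition of edge codes. -/
def swapE (e : (ℤ × ℤ) × Bool) : (ℤ × ℤ) × Bool := ((e.1.2, e.1.1), !e.2)

theorem swapV_swapV (a : ℤ × ℤ) : swapV (swapV a) = a := rfl

theorem swapE_swapE (e : (ℤ × ℤ) × Bool) : swapE (swapE e) = e := by
  simp [swapE]

theorem swapE_injective : Function.Injective swapE :=
  Function.LeftInverse.injective swapE_swapE

theorem adj_swap {a b : ℤ × ℤ} (h : Adj a b) : Adj (swapV a) (swapV b) := by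
  unfold Adj at *
  simp only [swapV]
  rw [add_comm]
  exact h

theorem edge_swap {a b : ℤ × ℤ} (h : Adj a b) : edge (swapV a) (swapV b) = swapE (edge a b) := by
  rcases adj_cases h with ⟨h2, h1⟩ | ⟨h1, h2⟩
  · have hne : a.1 ≠ b.1 := by omega
    simp [edge, swapV, swapE, h2, hne]
  · have hne : a.2 ≠ b.2 := by omega
    simp [edge, swapV, swapE, h1, hne]

theorem geodesicRay_swap {τ : (ℤ × ℤ) × Bool → ℝ} {v : ℕ → ℤ × ℤ} (h : IsGeodesicRay τ v) :
    IsGeodesicRay (fun e => τ (swapE e)) (fun i => swapV (v i)) := by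
  obtain ⟨hinj, hadj, hmin⟩ := h
  refine ⟨?_, fun i => adj_swap (hadj i), ?_⟩
  · intro i j hij
    apply hinj
    have := congrArg swapV hij
    simpa only [swapV_swapV] using this
  · intro i j hij p m hp hp0 hpm
    have hp' : IsWalk (fun k => swapV (p k)) m := fun k hk => adj_swap (hp k hk)
    have h1 := hmin i j hij (fun k => swapV (p k)) m hp'
      (by simp only [hp0, swapV_swapV]) (by simp only [hpm, swapV_swapV])
    have e1 : ∑ k ∈ Finset.Ico i j, τ (swapE (edge (swapV (v k)) (swapV (v (k + 1))))) =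
        ∑ k ∈ Finset.Ico i j, τ (edge (v k) (v (k + 1))) := by
      apply Finset.sum_congr rfl
      intro k _
      rw [edge_swap (hadj k), swapE_swapE]
    have e2 : walkWeight τ (fun k => swapV (p k)) m =
        walkWeight (fun e => τ (swapE e)) p m := by
      unfold walkWeight
      apply Finset.sum_congr rfl
      intro k hk
      rw [edge_swap (hp k (Finset.mem_range.mp hk))]
    rw [e1, ← e2]
    exact h1

end Vale.Agent.Lib.P158
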