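import Mathlib
import Vale.Agent.Lib.P158.Rays

namespace Vale.Agent.Lib.P158

open Finset

theorem sum_Ico_int_eq_range (g : ℤ → ℝ) (a : ℤ) (L : ℕ) :
    ∑ l ∈ Finset.Ico a (a + L), g l = ∑ r ∈ Finset.range L, g (a + r) := by
  symm
  apply Finset.sum_nbij' (fun r : ℕ => a + (r : ℤ)) (fun l : ℤ => (l - a).toNat)
  · intro r hr
    simp only [Finset.mem_range] at hr
    simp only [Finset.mem_Ico]
    omega
  · intro l hl
    simp only [Finset.mem_Ico] at hl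
    simp only [Finset.mem_range]
    omega
  · intro r _
    simp
  · intro l hl
    simp only [Finset.mem_Ico] at hl
    omega
  · intro r _
    rfl

theorem bigeodesic_pos {τ : (ℤ × ℤ) × Bool → ℝ} {v : ℤ → ℤ × ℤ} (h : IsBigeodesic τ v) :
    IsGeodesicRay τ (fun i : ℕ => v (i : ℤ)) := by
  obtain ⟨hinj, hadj, hmin⟩ := h
  refine ⟨fun i j hij => by exact_mod_cast hinj hij, fun i => ?_, ?_⟩
  · have := hadj (i : ℤ)
    simpa using this
  · intro i j hij p m hp hp0 hpm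
    have h1 := hmin i j (by exact_mod_cast hij) p m hp hp0 hpm
    have e : ∑ k ∈ Finset.Ico i j, τ (edge (v (k : ℤ)) (v ((k + 1 : ℕ) : ℤ))) =
        ∑ k ∈ Finset.Ico (i : ℤ) (j : ℤ), τ (edge (v k) (v (k + 1))) := by
      have hj : (j : ℤ) = (i : ℤ) + ((j - i : ℕ) : ℤ) := by omega
      rw [hj, sum_Ico_int_eq_range, Finset.sum_Ico_eq_sum_range]
      apply Finset.sum_congr rfl
      intro k _
      push_cast
      rfl
    show ∑ k ∈ Finset.Ico i j, τ (edge (v (k : ℤ)) (v ((k + 1 : ℕ) : ℤ))) ≤ walkWeight τ p m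
    rw [e]
    exact h1

theorem bigeodesic_neg {τ : (ℤ × ℤ) × Bool → ℝ} {v : ℤ → ℤ × ℤ} (h : IsBigeodesic τ v) :
    IsGeodesicRay τ (fun i : ℕ => v (-(i : ℤ))) := by
  obtain ⟨hinj, hadj, hmin⟩ := h
  refine ⟨?_, ?_, ?_⟩
  · intro i j hij
    have := hinj hij
    omega
  · intro i
    have h1 := hadj (-((i : ℤ) + 1))
    have e : -((i : ℤ) + 1) + 1 = -(i : ℤ) := by ring
    rw [e] at h1
    have h2 := adj_symm h1
    show Adj (v (-(i : ℤ))) (v (-((i + 1 : ℕ) : ℤ)))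
    push_cast
    exact h2
  · intro i j hij p m hp hp0 hpm
    set L := j - i with hL
    set q : ℕ → ℤ × ℤ := fun r => v (-(j : ℤ) + (r : ℤ)) with hq
    have hqw : IsWalk q L := by
      intro r _
      have := hadj (-(j : ℤ) + (r : ℤ))
      simp only [hq]
      push_cast
      rw [← add_assoc]
      exact this
    have h1 := hmin (-(j : ℤ)) (-(i : ℤ)) (by omega) (fun k => p (m - k)) m (isWalk_reverse hp)
      (by simpa using hpm) (by simpa using hp0)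
    rw [walkWeight_reverse τ hp] at h1
    have e1 : ∑ k ∈ Finset.Ico (-(j : ℤ)) (-(i : ℤ)), τ (edge (v k) (v (k + 1))) =
        walkWeight τ q L := by
      have hi : (-(i : ℤ)) = -(j : ℤ) + ((L : ℕ) : ℤ) := by omega
      rw [hi, sum_Ico_int_eq_range]
      unfold walkWeight
      apply Finset.sum_congr rfl
      intro r _
      simp only [hq]
      push_cast
      rw [add_assoc]
    have e2 : ∑ k ∈ Finset.Ico i j, τ (edge (v (-(k : ℤ))) (v (-((k + 1 : ℕ) : ℤ)))) =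
        walkWeight τ (fun r => q (L - r)) L := by
      unfold walkWeight
      rw [Finset.sum_Ico_eq_sum_range]
      apply Finset.sum_congr rfl
      intro r hr
      have hr' : r < L := Finset.mem_range.mp hr
      simp only [hq]
      have a1 : -(j : ℤ) + ((L - r : ℕ) : ℤ) = -((i + r : ℕ) : ℤ) := by omega
      have a2 : -(j : ℤ) + ((L - (r + 1) : ℕ) : ℤ) = -((i + r + 1 : ℕ) : ℤ) := by omega
      rw [a1, a2]
    show ∑ k ∈ Finset.Ico i j, τ (edge (v (-(k : ℤ))) (v (-((k + 1 : ℕ) : ℤ)))) ≤ walkWeight τ p m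
    rw [e2, walkWeight_reverse τ hqw, ← e1]
    exact h1

/-- The deterministic event used in the proof: nonnegative weights, and for every horizontal
strip, blocks arbitrarily far east and arbitrarily far west. -/
def Good (τ : (ℤ × ℤ) × Bool → ℝ) (α β : ℝ) (N : ℕ → ℕ) : Prop :=
  (∀ e, 0 ≤ τ e) ∧ ∀ (c : ℤ) (w : ℕ),
    (∀ X : ℤ, ∃ a, X < a ∧ Block τ c w a (N w) α β) ∧
    (∀ X : ℤ, ∃ a, a + N w < X ∧ Block τ c w a (N w) α β)

theorem ray_snd_unbounded {τ : (ℤ × ℤ) × Bool → ℝ} {α β : ℝ} {N : ℕ → ℕ} (hα : 0 ≤ α)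
    (hN : ∀ w : ℕ, 1 ≤ N w ∧ ((N w : ℝ) + 2 * w + 2) * α < β * N w)
    (hg : Good τ α β N) {v : ℕ → ℤ × ℤ} (hv : IsGeodesicRay τ v) (M : ℤ) :
    ∃ i, M < |(v i).2| := by
  by_contra hcon
  rw [not_exists] at hcon
  have hb : ∀ i, |(v i).2| ≤ M := fun i => not_lt.mp (hcon i)
  have hM : 0 ≤ M := le_trans (abs_nonneg _) (hb 0)
  obtain ⟨w, hw⟩ : ∃ w : ℕ, (w : ℤ) = 2 * M := ⟨(2 * M).toNat, by omega⟩
  refine ray_not_in_strip τ hg.1 (c := -M) (w := w) (hN w).1 hα (hN w).2 (hg.2 (-M) w).1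
    (hg.2 (-M) w).2 hv ?_
  intro i
  have := abs_le.mp (hb i)
  omega

theorem ray_unbounded {τ : (ℤ × ℤ) × Bool → ℝ} {α β : ℝ} {N : ℕ → ℕ} (hα : 0 ≤ α)
    (hN : ∀ w : ℕ, 1 ≤ N w ∧ ((N w : ℝ) + 2 * w + 2) * α < β * N w)
    (hg : Good τ α β N) (hg' : Good (fun e => τ (swapE e)) α β N)
    {v : ℕ → ℤ × ℤ} (hv : IsGeodesicRay τ v) (M : ℤ) :
    (∃ i, M < |(v i).1|) ∧ (∃ i, M < |(v i).2|) :=
  ⟨ray_snd_unbounded hα hN hg' (geodesicRay_swap hv) M, ray_snd_unbounded hα hN hg hv M⟩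

theorem bigeodesic_unbounded {τ : (ℤ × ℤ) × Bool → ℝ} {α β : ℝ} {N : ℕ → ℕ} (hα : 0 ≤ α)
    (hN : ∀ w : ℕ, 1 ≤ N w ∧ ((N w : ℝ) + 2 * w + 2) * α < β * N w)
    (hg : Good τ α β N) (hg' : Good (fun e => τ (swapE e)) α β N)
    {v : ℤ → ℤ × ℤ} (hv : IsBigeodesic τ v) (M : ℤ) :
    (∃ i, 0 ≤ i ∧ M < |(v i).1|) ∧ (∃ i, 0 ≤ i ∧ M < |(v i).2|) ∧
      (∃ i, i ≤ 0 ∧ M < |(v i).1|) ∧ (∃ i, i ≤ 0 ∧ M < |(v i).2|) := by
  obtain ⟨⟨i1, h1⟩, ⟨i2, h2⟩⟩ := ray_unbounded hα hN hg hg' (bigeodesic_pos hv) M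
  obtain ⟨⟨i3, h3⟩, ⟨i4, h4⟩⟩ := ray_unbounded hα hN hg hg' (bigeodesic_neg hv) M
  exact ⟨⟨i1, Int.natCast_nonneg i1, h1⟩, ⟨i2, Int.natCast_nonneg i2, h2⟩,
    ⟨-(i3 : ℤ), by omega, h3⟩, ⟨-(i4 : ℤ), by omega, h4⟩⟩

end Vale.Agent.Lib.P158
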