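import Mathlib
import Vale.Agent.Lib.P158.Ends

namespace Vale.Agent.Lib.P158

open MeasureTheory Measure Filter ProbabilityTheory

/-- The edges of a block. -/
noncomputable def blockEdges (c : ℤ) (w : ℕ) (a : ℤ) (n : ℕ) : Finset ((ℤ × ℤ) × Bool) :=
  ((Finset.Ico a (a + n) ×ˢ Finset.Icc c (c + w + 1)) ×ˢ ({false} : Finset Bool)) ∪
    ((({a, a + n} : Finset ℤ) ×ˢ Finset.Icc c (c + w)) ×ˢ ({true} : Finset Bool))

/-- The constraint on the weight of an edge of a block. -/
def blockSet (c : ℤ) (w : ℕ) (α β : ℝ) (e : (ℤ × ℤ) × Bool) : Set ℝ :=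
  if e.2 = false ∧ e.1.2 ≤ c + w then Set.Ici β else Set.Iic α

theorem block_of_mem {ω : (ℤ × ℤ) × Bool → ℝ} {c : ℤ} {w : ℕ} {a : ℤ} {n : ℕ} {α β : ℝ}
    (h : ω ∈ Set.pi (↑(blockEdges c w a n)) (blockSet c w α β)) : Block ω c w a n α β := by
  refine ⟨?_, ?_, ?_⟩
  · intro x y hx1 hx2 hy1 hy2
    have hm : ((x, y), false) ∈ blockEdges c w a n := by
      simp only [blockEdges, Finset.mem_union, Finset.mem_product, Finset.mem_Ico,
        Finset.mem_Icc, Finset.mem_singleton]
      left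
      exact ⟨⟨⟨hx1, hx2⟩, hy1, by omega⟩, trivial⟩
    have := h _ (Finset.mem_coe.mpr hm)
    simpa [blockSet, hy2] using this
  · intro y hy1 hy2
    constructor
    · have hm : ((a, y), true) ∈ blockEdges c w a n := by
        simp only [blockEdges, Finset.mem_union, Finset.mem_product, Finset.mem_Ico,
          Finset.mem_Icc, Finset.mem_singleton, Finset.mem_insert]
        right
        exact ⟨⟨Or.inl trivial, hy1, hy2⟩, trivial⟩
      have := h _ (Finset.mem_coe.mpr hm)
      simpa [blockSet] using this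
    · have hm : ((a + n, y), true) ∈ blockEdges c w a n := by
        simp only [blockEdges, Finset.mem_union, Finset.mem_product, Finset.mem_Ico,
          Finset.mem_Icc, Finset.mem_singleton, Finset.mem_insert]
        right
        exact ⟨⟨Or.inr trivial, hy1, hy2⟩, trivial⟩
      have := h _ (Finset.mem_coe.mpr hm)
      simpa [blockSet] using this
  · intro x hx1 hx2
    have hm : ((x, c + w + 1), false) ∈ blockEdges c w a n := by
      simp only [blockEdges, Finset.mem_union, Finset.mem_product, Finset.mem_Ico,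
        Finset.mem_Icc, Finset.mem_singleton]
      left
      exact ⟨⟨⟨hx1, hx2⟩, by omega, le_rfl⟩, trivial⟩
    have := h _ (Finset.mem_coe.mpr hm)
    simpa [blockSet] using this

theorem mem_blockEdges_fst {c : ℤ} {w : ℕ} {a : ℤ} {n : ℕ} {e : (ℤ × ℤ) × Bool}
    (h : e ∈ blockEdges c w a n) : a ≤ e.1.1 ∧ e.1.1 ≤ a + n := by
  simp only [blockEdges, Finset.mem_union, Finset.mem_product, Finset.mem_Ico,
    Finset.mem_Icc, Finset.mem_singleton, Finset.mem_insert] at h
  omega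

theorem card_blockEdges_le (c : ℤ) (w : ℕ) (a : ℤ) (n : ℕ) :
    (blockEdges c w a n).card ≤ n * (w + 2) + 2 * (w + 1) := by
  unfold blockEdges
  refine (Finset.card_union_le _ _).trans ?_
  simp only [Finset.card_product, Finset.card_singleton, mul_one, Int.card_Ico, Int.card_Icc]
  have h1 : (a + n - a).toNat = n := by omega
  have h2 : (c + w + 1 + 1 - c).toNat = w + 2 := by omega
  have h3 : (c + w + 1 - c).toNat = w + 1 := by omega
  have h4 : ({a, a + n} : Finset ℤ).card ≤ 2 := Finset.card_le_two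
  rw [h1, h2, h3]
  have := Nat.mul_le_mul_right (w + 1) h4
  omega

theorem measurable_blockSet (c : ℤ) (w : ℕ) (α β : ℝ) (e : (ℤ × ℤ) × Bool) :
    MeasurableSet (blockSet c w α β e) := by
  unfold blockSet
  split_ifs
  · exact measurableSet_Ici
  · exact measurableSet_Iic

variable (G : Measure ℝ) [IsProbabilityMeasure G]

theorem measure_block (c : ℤ) (w : ℕ) (a : ℤ) (n : ℕ) (α β : ℝ) :
    infinitePi (fun _ : (ℤ × ℤ) × Bool => G)
        (Set.pi (↑(blockEdges c w a n)) (blockSet c w α β)) =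
      ∏ e ∈ blockEdges c w a n, G (blockSet c w α β e) :=
  infinitePi_pi _ (fun e _ => measurable_blockSet c w α β e)

theorem measure_block_ge (c : ℤ) (w : ℕ) (a : ℤ) (n : ℕ) (α β : ℝ) :
    (min (G (Set.Iic α)) (G (Set.Ici β))) ^ (n * (w + 2) + 2 * (w + 1)) ≤
      infinitePi (fun _ : (ℤ × ℤ) × Bool => G)
        (Set.pi (↑(blockEdges c w a n)) (blockSet c w α β)) := by
  rw [measure_block]
  have hq1 : min (G (Set.Iic α)) (G (Set.Ici β)) ≤ 1 := (min_le_left _ _).trans prob_le_one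
  calc (min (G (Set.Iic α)) (G (Set.Ici β))) ^ (n * (w + 2) + 2 * (w + 1))
      ≤ (min (G (Set.Iic α)) (G (Set.Ici β))) ^ (blockEdges c w a n).card :=
        pow_le_pow_of_le_one zero_le hq1 (card_blockEdges_le c w a n)
    _ ≤ ∏ e ∈ blockEdges c w a n, G (blockSet c w α β e) := by
        apply Finset.pow_card_le_prod
        intro e _
        unfold blockSet
        split_ifs
        · exact min_le_right _ _
        · exact min_le_left _ _

theorem ae_frequently_block (c : ℤ) (w n : ℕ) (α β : ℝ) (hq : G (Set.Iic α) ≠ 0)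
    (hq' : G (Set.Ici β) ≠ 0) (a : ℕ → ℤ)
    (ha : ∀ i j, i < j → a i + n < a j ∨ a j + n < a i) :
    ∀ᵐ ω ∂(infinitePi (fun _ : (ℤ × ℤ) × Bool => G)),
      ∃ᶠ j in atTop, Block ω c w (a j) n α β := by
  set μ := infinitePi (fun _ : (ℤ × ℤ) × Bool => G) with hμ
  set D : ℕ → Set ((ℤ × ℤ) × Bool → ℝ) :=
    fun j => Set.pi (↑(blockEdges c w (a j) n)) (blockSet c w α β) with hD
  have hmeas : ∀ j, MeasurableSet (D j) := fun j =>
    MeasurableSet.pi (Finset.countable_toSet _) (fun e _ => measurable_blockSet c w α β e)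
  have hdisj : ∀ i j, i ≠ j →
      Disjoint (blockEdges c w (a i) n) (blockEdges c w (a j) n) := by
    intro i j hij
    rw [Finset.disjoint_left]
    intro e he he'
    have h1 := mem_blockEdges_fst he
    have h2 := mem_blockEdges_fst he'
    rcases Nat.lt_or_gt_of_ne hij with h | h
    · rcases ha i j h with h3 | h3 <;> omega
    · rcases ha j i h with h3 | h3 <;> omega
  have hind : iIndepSet D μ := by
    rw [iIndepSet_iff_meas_biInter hmeas]
    intro s
    have e1 : ⋂ j ∈ s, D j =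
        Set.pi (↑(s.biUnion fun j => blockEdges c w (a j) n)) (blockSet c w α β) := by
      ext ω
      simp only [hD, Set.mem_iInter, Set.mem_pi, Finset.mem_coe, Finset.mem_biUnion]
      constructor
      · rintro h e ⟨j, hj, he⟩
        exact h j hj e he
      · intro h j hj e he
        exact h e ⟨j, hj, he⟩
    rw [e1, hμ, infinitePi_pi _ (fun e _ => measurable_blockSet c w α β e),
      Finset.prod_biUnion (fun i _ j _ hij => hdisj i j hij)]
    apply Finset.prod_congr rfl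
    intro j _
    rw [hD]
    exact (measure_block G c w (a j) n α β).symm
  have hsum : ∑' j, μ (D j) = ⊤ := by
    have hc : (min (G (Set.Iic α)) (G (Set.Ici β))) ^ (n * (w + 2) + 2 * (w + 1)) ≠ 0 := by
      apply pow_ne_zero
      intro h0
      rcases min_eq_iff.mp h0 with ⟨h, _⟩ | ⟨h, _⟩
      · exact hq h
      · exact hq' h
    rw [eq_top_iff, ← ENNReal.tsum_const_eq_top_of_ne_zero (α := ℕ) hc]
    exact ENNReal.tsum_le_tsum (fun j => measure_block_ge G c w (a j) n α β)
  have h1 := measure_limsup_eq_one hmeas hind hsum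
  have h2 : μ (limsup D atTop)ᶜ = 0 :=
    (prob_compl_eq_zero_iff (MeasurableSet.measurableSet_limsup hmeas)).mpr h1
  have h3 : ∀ᵐ ω ∂μ, ω ∈ limsup D atTop := by
    rw [ae_iff]
    exact h2
  filter_upwards [h3] with ω hω
  exact (Filter.mem_limsup_iff_frequently_mem.mp hω).mono (fun j hj => block_of_mem hj)

theorem ae_nonneg (hG0 : G (Set.Iio 0) = 0) :
    ∀ᵐ ω ∂(infinitePi (fun _ : (ℤ × ℤ) × Bool => G)), ∀ e, 0 ≤ ω e := by
  rw [ae_all_iff]
  intro e
  have h := infinitePi_map_eval (fun _ : (ℤ × ℤ) × Bool => G) e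
  rw [ae_iff]
  have hs : {ω : (ℤ × ℤ) × Bool → ℝ | ¬ 0 ≤ ω e} = (fun ω => ω e) ⁻¹' Set.Iio 0 := by
    ext ω
    simp
  rw [hs, ← Measure.map_apply (measurable_pi_apply e) measurableSet_Iio, h, hG0]

theorem ae_good (hG0 : G (Set.Iio 0) = 0) (α β : ℝ) (hq : G (Set.Iic α) ≠ 0)
    (hq' : G (Set.Ici β) ≠ 0) (N : ℕ → ℕ) :
    ∀ᵐ ω ∂(infinitePi (fun _ : (ℤ × ℤ) × Bool => G)), Good ω α β N := by
  have h1 := ae_nonneg G hG0
  have h2 : ∀ᵐ ω ∂(infinitePi (fun _ : (ℤ × ℤ) × Bool => G)), ∀ (c : ℤ) (w : ℕ),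
      (∀ X : ℤ, ∃ a, X < a ∧ Block ω c w a (N w) α β) ∧
      (∀ X : ℤ, ∃ a, a + N w < X ∧ Block ω c w a (N w) α β) := by
    rw [ae_all_iff]
    intro c
    rw [ae_all_iff]
    intro w
    have hE := ae_frequently_block G c w (N w) α β hq hq'
      (fun j => ((j : ℤ) + 1) * ((N w : ℤ) + 1)) (by
        intro i j hij
        left
        have h : (i : ℤ) + 1 ≤ j := by exact_mod_cast hij
        have hN : (0 : ℤ) ≤ N w := Int.natCast_nonneg _
        nlinarith)
    have hW := ae_frequently_block G c w (N w) α β hq hq'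
      (fun j => -(((j : ℤ) + 1) * ((N w : ℤ) + 1))) (by
        intro i j hij
        right
        have h : (i : ℤ) + 1 ≤ j := by exact_mod_cast hij
        have hN : (0 : ℤ) ≤ N w := Int.natCast_nonneg _
        nlinarith)
    filter_upwards [hE, hW] with ω hE hW
    constructor
    · intro X
      obtain ⟨j, hj, hB⟩ := Filter.frequently_atTop.mp hE X.toNat
      refine ⟨_, ?_, hB⟩
      have h : X ≤ j := by omega
      have hN : (0 : ℤ) ≤ N w := Int.natCast_nonneg _
      have hj0 : (0 : ℤ) ≤ j := Int.natCast_nonneg _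
      nlinarith
    · intro X
      obtain ⟨j, hj, hB⟩ := Filter.frequently_atTop.mp hW (-X).toNat
      refine ⟨_, ?_, hB⟩
      have h : -X ≤ j := by omega
      have hN : (0 : ℤ) ≤ N w := Int.natCast_nonneg _
      have hj0 : (0 : ℤ) ≤ j := Int.natCast_nonneg _
      nlinarith
  filter_upwards [h1, h2] with ω h1 h2 using ⟨h1, h2⟩

theorem ae_good_swap (hG0 : G (Set.Iio 0) = 0) (α β : ℝ) (hq : G (Set.Iic α) ≠ 0)
    (hq' : G (Set.Ici β) ≠ 0) (N : ℕ → ℕ) :
    ∀ᵐ ω ∂(infinitePi (fun _ : (ℤ × ℤ) × Bool => G)),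
      Good (fun e => ω (swapE e)) α β N := by
  have hmap : (infinitePi (fun _ : (ℤ × ℤ) × Bool => G)).map (fun ω e => ω (swapE e)) =
      infinitePi (fun _ : (ℤ × ℤ) × Bool => G) :=
    Measure.map_infinitePi_infinitePi_of_inj (P := fun _ : (ℤ × ℤ) × Bool => G)
      swapE_injective
  have hm : Measurable (fun (ω : (ℤ × ℤ) × Bool → ℝ) (e : (ℤ × ℤ) × Bool) => ω (swapE e)) :=
    measurable_pi_lambda _ (fun e => measurable_pi_apply _)
  have h := ae_good G hG0 α β hq hq' N
  rw [← hmap] at h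
  exact ae_of_ae_map hm.aemeasurable h

theorem exists_N {α β : ℝ} (hα : 0 ≤ α) (hαβ : α < β) :
    ∃ N : ℕ → ℕ, ∀ w : ℕ, 1 ≤ N w ∧ ((N w : ℝ) + 2 * w + 2) * α < β * N w := by
  refine ⟨fun w => ⌈(2 * (w : ℝ) + 2) * α / (β - α)⌉₊ + 1, fun w => ⟨Nat.le_add_left 1 _, ?_⟩⟩
  have hpos : 0 < β - α := by linarith
  have h1 : (2 * (w : ℝ) + 2) * α / (β - α) ≤ ⌈(2 * (w : ℝ) + 2) * α / (β - α)⌉₊ :=
    Nat.le_ceil _
  have h2 : (2 * (w : ℝ) + 2) * α ≤ ⌈(2 * (w : ℝ) + 2) * α / (β - α)⌉₊ * (β - α) := by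
    rwa [div_le_iff₀ hpos] at h1
  push_cast
  nlinarith

end Vale.Agent.Lib.P158
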