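import Mathlib
import Vale.Agent.Lib.P158.Prob

namespace Vale.Agent.Lib.P158

open MeasureTheory Measure Filter

/-- A probability law on the half-line that is not a point mass charges a lower half-line
`(-∞, α]` and an upper half-line `[β, ∞)` with `0 ≤ α < β`. -/
theorem exists_split (G : Measure ℝ) [IsProbabilityMeasure G] (hG0 : G (Set.Iio 0) = 0)
    (hG1 : ∀ x : ℝ, G {x} < 1) :
    ∃ α β : ℝ, 0 ≤ α ∧ α < β ∧ G (Set.Iic α) ≠ 0 ∧ G (Set.Ici β) ≠ 0 := by
  have step1 : ∃ x : ℝ, G (Set.Iic x) ≠ 0 ∧ G (Set.Ioi x) ≠ 0 := by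
    by_contra hcon
    have hc : ∀ x : ℝ, G (Set.Iic x) ≠ 0 → G (Set.Ioi x) = 0 := by
      intro x hx
      by_contra h
      exact hcon ⟨x, hx, h⟩
    set A : Set ℝ := {x | G (Set.Iic x) = 0} with hA
    have hAne : A.Nonempty := by
      refine ⟨-1, ?_⟩
      apply measure_mono_null _ hG0
      intro y hy
      simp only [Set.mem_Iic] at hy
      simp only [Set.mem_Iio]
      linarith
    have hAdown : ∀ x ∈ A, ∀ y ≤ x, y ∈ A := by
      intro x hx y hyx
      exact measure_mono_null (Set.Iic_subset_Iic.mpr hyx) hx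
    have hnot : ∃ x0 : ℝ, x0 ∉ A := by
      by_contra hall
      have hall' : ∀ x : ℝ, G (Set.Iic x) = 0 := by
        intro x
        by_contra hx
        exact hall ⟨x, hx⟩
      have hu : (Set.univ : Set ℝ) ⊆ ⋃ k : ℕ, Set.Iic (k : ℝ) := by
        intro y _
        obtain ⟨k, hk⟩ := exists_nat_ge y
        exact Set.mem_iUnion.mpr ⟨k, hk⟩
      have h0 : G Set.univ = 0 :=
        measure_mono_null hu (measure_iUnion_null (fun k => hall' k))
      rw [measure_univ] at h0
      exact one_ne_zero h0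
    obtain ⟨x0, hx0⟩ := hnot
    have hbdd : BddAbove A := by
      refine ⟨x0, fun x hx => ?_⟩
      by_contra hlt
      exact hx0 (hAdown x hx x0 (le_of_not_ge hlt))
    set s := sSup A with hs
    have hlow : G (Set.Iio s) = 0 := by
      have hsub : Set.Iio s ⊆ ⋃ k : ℕ, Set.Iic (s - 1 / ((k : ℝ) + 1)) := by
        intro y hy
        simp only [Set.mem_Iio] at hy
        obtain ⟨k, hk⟩ := exists_nat_one_div_lt (sub_pos.mpr hy)
        refine Set.mem_iUnion.mpr ⟨k, ?_⟩
        simp only [Set.mem_Iic]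
        linarith
      refine measure_mono_null hsub (measure_iUnion_null (fun k => ?_))
      have hpos : (0 : ℝ) < 1 / ((k : ℝ) + 1) := by positivity
      obtain ⟨x, hxA, hx⟩ := exists_lt_of_lt_csSup hAne (show s - 1 / ((k : ℝ) + 1) < sSup A by
        rw [← hs]; linarith)
      exact hAdown x hxA _ hx.le
    have hhigh : G (Set.Ioi s) = 0 := by
      have hsub : Set.Ioi s ⊆ ⋃ k : ℕ, Set.Ioi (s + 1 / ((k : ℝ) + 1)) := by
        intro y hy
        simp only [Set.mem_Ioi] at hy
        obtain ⟨k, hk⟩ := exists_nat_one_div_lt (sub_pos.mpr hy)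
        refine Set.mem_iUnion.mpr ⟨k, ?_⟩
        simp only [Set.mem_Ioi]
        linarith
      refine measure_mono_null hsub (measure_iUnion_null (fun k => ?_))
      have hpos : (0 : ℝ) < 1 / ((k : ℝ) + 1) := by positivity
      apply hc
      intro h0
      have hmem : s + 1 / ((k : ℝ) + 1) ∈ A := h0
      have := le_csSup hbdd hmem
      rw [← hs] at this
      linarith
    have hcover : (Set.univ : Set ℝ) ⊆ Set.Iio s ∪ ({s} ∪ Set.Ioi s) := by
      intro y _
      rcases lt_trichotomy y s with h | h | h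
      · exact Or.inl h
      · exact Or.inr (Or.inl h)
      · exact Or.inr (Or.inr h)
    have h1 : (1 : ENNReal) ≤ G {s} := by
      calc (1 : ENNReal) = G Set.univ := measure_univ.symm
        _ ≤ G (Set.Iio s ∪ ({s} ∪ Set.Ioi s)) := measure_mono hcover
        _ ≤ G (Set.Iio s) + G ({s} ∪ Set.Ioi s) := measure_union_le _ _
        _ ≤ G (Set.Iio s) + (G {s} + G (Set.Ioi s)) := by
            gcongr
            exact measure_union_le _ _
        _ = G {s} := by rw [hlow, hhigh]; simp
    exact absurd (hG1 s) (not_lt.mpr h1)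
  obtain ⟨x, hx1, hx2⟩ := step1
  have hx0 : 0 ≤ x := by
    by_contra hneg
    apply hx1
    apply measure_mono_null _ hG0
    intro y hy
    simp only [Set.mem_Iic] at hy
    simp only [Set.mem_Iio]
    linarith
  have hex : ∃ k : ℕ, G (Set.Ici (x + 1 / ((k : ℝ) + 1))) ≠ 0 := by
    by_contra hall
    have hall' : ∀ k : ℕ, G (Set.Ici (x + 1 / ((k : ℝ) + 1))) = 0 := by
      intro k
      by_contra hk
      exact hall ⟨k, hk⟩
    apply hx2
    have hsub : Set.Ioi x ⊆ ⋃ k : ℕ, Set.Ici (x + 1 / ((k : ℝ) + 1)) := by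
      intro y hy
      simp only [Set.mem_Ioi] at hy
      obtain ⟨k, hk⟩ := exists_nat_one_div_lt (sub_pos.mpr hy)
      refine Set.mem_iUnion.mpr ⟨k, ?_⟩
      simp only [Set.mem_Ici]
      linarith
    exact measure_mono_null hsub (measure_iUnion_null hall')
  obtain ⟨k, hk⟩ := hex
  have hpos : (0 : ℝ) < 1 / ((k : ℝ) + 1) := by positivity
  exact ⟨x, x + 1 / ((k : ℝ) + 1), hx0, by linarith, hx1, hk⟩

end Vale.Agent.Lib.P158
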